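import Vale.Agent.P354H.Defs

/-!
Uniqueness in a domain of dependence by a weighted energy estimate.
-/

open scoped ContDiff
open MeasureTheory Set Filter Topology

namespace Vale.Agent.P354HU

open Vale.Agent.P354H

theorem haar2 : (volume : Measure (ℝ × ℝ)).IsAddHaarMeasure := Measure.prod.instIsAddHaarMeasure _ _

theorem haar3 : (volume : Measure X3).IsAddHaarMeasure :=
  have := haar2
  Measure.prod.instIsAddHaarMeasure _ _

theorem cs_sl {V : Type} [Zero V] {f : ℝ × X3 → V} (h : HasCompactSupport f) (t : ℝ) :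
    HasCompactSupport fun x => f (t, x) :=
  HasCompactSupport.intro (h.image continuous_snd) fun x hx => by
    by_contra c
    exact hx ⟨(t, x), subset_tsupport _ c, rfl⟩

theorem int_sl {f : ℝ × X3 → ℝ} (hf : Continuous f) (h : HasCompactSupport f) (t : ℝ) :
    Integrable fun x => f (t, x) :=
  (hf.comp (Continuous.prodMk_right t)).integrable_of_hasCompactSupport (cs_sl h t)

theorem cont_fd {f : ℝ × X3 → ℝ} (hf : ContDiff ℝ 1 f) (v : ℝ × X3) :
    Continuous fun p => fderiv ℝ f p v := (hf.continuous_fderiv one_ne_zero).clm_apply continuous_const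

/-- The integral of a space derivative vanishes. -/
theorem int_dx {f : ℝ × X3 → ℝ} (hf : ContDiff ℝ 1 f) (h : HasCompactSupport f) (j : Fin 3)
    (t : ℝ) : ∫ x, dx j f (t, x) = 0 := by
  have e1 : ∀ x, fderiv ℝ (fun x => f (t, x)) x (e j) = dx j f (t, x) := fun x => by
    rw [show fderiv ℝ (fun x => f (t, x)) x = _ from
      ((hf.differentiable one_ne_zero _).hasFDerivAt.comp x (hasFDerivAt_prodMk_right t x)).fderiv]
    rfl
  have := haar3
  have a := integral_mul_fderiv_eq_neg_fderiv_mul_of_integrable (μ := volume) (v := e j)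
    (f := fun _ : X3 => (1 : ℝ)) (g := fun x => f (t, x)) (by simp)
    (by simpa only [one_mul, e1, dx] using int_sl (cont_fd hf _) (h.fderiv_apply ℝ _) t)
    (by simpa only [one_mul] using int_sl hf.continuous h t) (fun _ _ => by fun_prop)
    fun x _ => (hf.differentiable one_ne_zero _).comp x (by fun_prop)
  simpa [e1] using a

/-- Differentiation of the integral over the slices. -/
theorem deriv_int {f : ℝ × X3 → ℝ} (hf : ContDiff ℝ 1 f) (h : HasCompactSupport f) (t : ℝ) :
    HasDerivAt (fun s => ∫ x, f (s, x)) (∫ x, dt f (t, x)) t := by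
  have c := cont_fd hf (1, 0)
  have k := h.fderiv_apply ℝ ((1, 0) : ℝ × X3)
  obtain ⟨C, hC⟩ := c.bounded_above_of_compact_support k
  have hK := k.image continuous_snd
  refine (hasDerivAt_integral_of_dominated_loc_of_deriv_le (F := fun s x => f (s, x))
    (F' := fun s x => dt f (s, x)) (bound := indicator (Prod.snd '' tsupport _) fun _ => C) univ_mem
    (Eventually.of_forall fun s => (int_sl hf.continuous h s).1) (int_sl hf.continuous h t)
    (int_sl c k t).1 (ae_of_all _ fun x s _ => ?_)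
    ((integrable_indicator_iff hK.measurableSet).2 (integrableOn_const hK.measure_lt_top.ne))
    (ae_of_all _ fun x s _ => ?_)).2
  · by_cases hx : x ∈ Prod.snd '' tsupport fun p => fderiv ℝ f p (1, 0)
    · rw [indicator_of_mem hx]; exact hC _
    · rw [indicator_of_notMem hx, norm_le_zero_iff]
      by_contra z
      exact hx ⟨(s, x), subset_tsupport _ z, rfl⟩
  · exact (hf.differentiable one_ne_zero (s, x)).hasFDerivAt.comp_hasDerivAt s
      ((hasDerivAt_id s).prodMk (hasDerivAt_const s x))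

/-- **Energy inequality.** -/
theorem energy {f : ℝ × X3 → ℝ} {g : Fin 3 → ℝ × X3 → ℝ} {t0 t1 L : ℝ} (hf : ContDiff ℝ 1 f)
    (h : HasCompactSupport f) (hg : ∀ j, ContDiff ℝ 1 (g j)) (h' : ∀ j, HasCompactSupport (g j))
    (hd : ∀ p : ℝ × X3, p.1 ∈ Icc t0 t1 → dt f p ≤ ∑ j, dx j (g j) p + L * f p) {t : ℝ}
    (ht : t ∈ Icc t0 t1) :
    Real.exp (-L * t) * ∫ x, f (t, x) ≤ Real.exp (-L * t0) * ∫ x, f (t0, x) := by
  have d : ∀ s, HasDerivAt (fun s => Real.exp (-L * s) * ∫ x, f (s, x))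
      (Real.exp (-L * s) * (-L * 1) * (∫ x, f (s, x)) + Real.exp (-L * s) * ∫ x, dt f (s, x)) s :=
    fun s => ((hasDerivAt_id s).const_mul (-L)).exp.mul (deriv_int hf h s)
  refine antitoneOn_of_deriv_nonpos (convex_Icc t0 t1)
    (fun s _ => (d s).continuousAt.continuousWithinAt)
    (fun s _ => (d s).differentiableAt.differentiableWithinAt) (fun s hs => ?_)
    (left_mem_Icc.2 (ht.1.trans ht.2)) ht ht.1
  have i1 : ∀ j, Integrable fun x => dx j (g j) (s, x) := fun j =>
    int_sl (cont_fd (hg j) _) ((h' j).fderiv_apply ℝ _) s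
  have i2 := (int_sl hf.continuous h s).const_mul L
  have a := integral_mono (int_sl (cont_fd hf (1, 0)) (h.fderiv_apply ℝ _) s)
    ((integrable_finsetSum _ fun j _ => i1 j).add i2) fun x => hd (s, x) (interior_subset hs)
  rw [integral_add' (integrable_finsetSum _ fun j _ => i1 j) i2, integral_finsetSum _ fun j _ => i1 j,
    integral_const_mul, Finset.sum_eq_zero fun j _ => int_dx (hg j) (h' j) j s, zero_add] at a
  rw [(d s).deriv]
  have := mul_le_mul_of_nonneg_left a (Real.exp_pos (-L * s)).le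
  unfold dt
  linarith

/-- A cutoff. -/
theorem cutoff {E : Type} [NormedAddCommGroup E] [NormedSpace ℝ E] [FiniteDimensional ℝ E]
    {O D : Set E} (hO : IsOpen O) (hD : IsCompact D) (h : D ⊆ O) :
    ∃ η : E → ℝ, ContDiff ℝ ∞ η ∧ HasCompactSupport η ∧ tsupport η ⊆ O ∧ (∀ p, η p ∈ Icc 0 1) ∧
      ∀ p ∈ D, η =ᶠ[𝓝 p] fun _ => 1 := by
  obtain ⟨K, k1, k2, k3⟩ := exists_compact_between hD hO h
  obtain ⟨f, f1, f2, f3⟩ := exists_contMDiffMap_one_nhds_of_subset_interior
    (modelWithCornersSelf ℝ E) (n := ⊤) hD.isClosed k2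
  exact ⟨f, f.contMDiff.contDiff, .intro k1 f2,
    (closure_minimal (fun x (hx : f x ≠ 0) => by_contra fun c => hx (f2 x c)) k1.isClosed).trans k3, f3,
    fun p hp => (nhds_le_nhdsSet hp) f1⟩

theorem cut_mul {η F : ℝ × X3 → ℝ} {O : Set (ℝ × X3)} (hO : IsOpen O) (h1 : ContDiff ℝ ∞ η)
    (h2 : tsupport η ⊆ O) (hF : ContDiffOn ℝ 1 F O) : ContDiff ℝ 1 fun p => η p * F p := by
  refine contDiff_iff_contDiffAt.2 fun p => ?_
  by_cases hp : p ∈ tsupport η
  · exact (h1.contDiffAt.of_le (by simp)).mul (hF.contDiffAt (hO.mem_nhds (h2 hp)))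
  · refine (contDiffAt_const (c := (0 : ℝ))).congr_of_eventuallyEq ?_
    filter_upwards [notMem_tsupport_iff_eventuallyEq.1 hp] with q hq
    rw [hq, Pi.zero_apply, zero_mul]

/-- The weight. -/
noncomputable def wt {ι : Type} [Fintype ι] (φ : ι → ℝ × X3 → ℝ) (p : ℝ × X3) : ℝ :=
  ∏ i, expNegInvGlue (-φ i p)

section
variable {ι : Type} [Fintype ι] {φ : ι → ℝ × X3 → ℝ}

theorem wt_nonneg (p : ℝ × X3) : 0 ≤ wt φ p := Finset.prod_nonneg fun _ _ => expNegInvGlue.nonneg _

theorem wt_ne {p : ℝ × X3} : wt φ p ≠ 0 ↔ ∀ i, φ i p < 0 := by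
  simp [wt, Finset.prod_ne_zero_iff]

theorem wt_cd (h : ∀ i, ContDiff ℝ 1 (φ i)) : ContDiff ℝ 1 (wt φ) :=
  contDiff_prod fun i _ => (expNegInvGlue.contDiff (n := 1)).comp (h i).neg

theorem wt_fd (h : ∀ i, ContDiff ℝ 1 (φ i)) {p v : ℝ × X3} (hv : ∀ i, 0 ≤ fderiv ℝ (φ i) p v) :
    fderiv ℝ (wt φ) p v ≤ 0 := by
  classical
  have d := HasFDerivAt.finsetProd (u := Finset.univ) fun i _ =>
    ((expNegInvGlue.contDiff (n := 1)).differentiable one_ne_zero (-φ i p)).hasDerivAt.comp_hasFDerivAt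
      p ((h i).differentiable one_ne_zero p).hasFDerivAt.neg
  rw [show fderiv ℝ (wt φ) p = _ from d.fderiv, sum_apply]
  refine Finset.sum_nonpos fun i _ => mul_nonpos_of_nonneg_of_nonpos
    (Finset.prod_nonneg fun _ _ => expNegInvGlue.nonneg _)
    (mul_nonpos_of_nonneg_of_nonpos expNegInvGlue.monotone.deriv_nonneg (neg_nonpos.2 (hv i)))

end

theorem fd_comb (T : ℝ × X3 →L[ℝ] ℝ) (a : ℝ) (b : Fin 3 → ℝ) :
    T (a • (1, 0) - ∑ j, b j • (0, e j)) = T (1, 0) * a - ∑ j, T (0, e j) * b j := by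
  simp only [map_sub, map_sum, map_smul, smul_eq_mul, mul_comm]

/-- **UNIQ.** -/
theorem uniq : UNIQ := by
  intro V _ _ _ ι _ φ A Z O D t0 t1 K hO hD hDO hφ hA hZ H h0 p hp hneg
  obtain ⟨η, e1, e2, e3, e4, e5⟩ := cutoff hO hD hDO
  have c0 : ContDiffOn ℝ 1 (fun p => inner ℝ (Z p) (Z p)) O := hZ.inner ℝ hZ
  have cj : ∀ j, ContDiffOn ℝ 1 (fun p => inner ℝ (Z p) (A j p (Z p))) O := fun j =>
    hZ.inner ℝ ((hA j).clm_apply hZ)
  have c1 := cut_mul hO e1 e3 c0
  have c2 := fun j => cut_mul hO e1 e3 (cj j)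
  have cw := wt_cd hφ
  obtain ⟨M, hM⟩ := hD.exists_bound_of_continuousOn (f := fun p => ∑ j, ‖dx j (A j) p‖)
    (continuousOn_finsetSum _ fun j _ => ((((hA j).continuousOn_fderiv_of_isOpen hO le_rfl).mono
      hDO).clm_apply continuousOn_const).norm)
  have n0 : ∀ q, 0 ≤ wt φ q * (η q * inner ℝ (Z q) (Z q)) := fun q =>
    mul_nonneg (wt_nonneg q) (mul_nonneg (e4 q).1 real_inner_self_nonneg)
  have s0 : HasCompactSupport fun q => wt φ q * (η q * inner ℝ (Z q) (Z q)) :=
    e2.mul_right.mul_left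
  have en := energy (L := 2 * K + M) (cw.mul c1) s0 (fun j => cw.mul (c2 j))
    (fun j => e2.mul_right.mul_left) (fun q hq => ?_) hp
  · have z : ∀ x, wt φ (t0, x) * (η (t0, x) * inner ℝ (Z (t0, x)) (Z (t0, x))) = 0 := fun x => by
      by_cases c : wt φ (t0, x) = 0
      · rw [c, zero_mul]
      · simp [h0 x (wt_ne.1 c)]
    simp only [z, integral_zero, mul_zero] at en
    have := haar3
    by_contra b
    have a := ((cw.mul c1).continuous.comp (Continuous.prodMk_right p.1)
      ).integral_pos_of_hasCompactSupport_nonneg_nonzero (μ := volume) (x := p.2) (cs_sl s0 p.1)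
      (fun x => n0 _) (by simpa [wt_ne.2 hneg, (e5 p (H p hp hneg).1).self_of_nhds] using b)
    exact (mul_pos (Real.exp_pos _) a).not_ge en
  · have dw := cw.differentiable one_ne_zero q
    unfold dt dx
    simp only [fderiv_fun_mul dw (c1.differentiable one_ne_zero q),
      fun j => fderiv_fun_mul dw ((c2 j).differentiable one_ne_zero q)]
    by_cases c : wt φ q = 0
    · have : IsLocalMin (wt φ) q := Eventually.of_forall fun r => c ▸ wt_nonneg r
      simp [c, this.fderiv_eq_zero]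
    obtain ⟨a1, a2, a3, a4⟩ := H q hq (wt_ne.1 c)
    have f1 : ∀ F : ℝ × X3 → ℝ, fderiv ℝ (fun p => η p * F p) q = fderiv ℝ F q := fun F =>
      EventuallyEq.fderiv_eq (by filter_upwards [e5 q a1] with r hr using by rw [hr, one_mul])
    have dZ := (hZ.contDiffAt (hO.mem_nhds (hDO a1))).differentiableAt one_ne_zero
    have dA := fun j => ((hA j).contDiffAt (hO.mem_nhds (hDO a1))).differentiableAt one_ne_zero
    have b1 := wt_fd hφ (p := q) (v := (inner ℝ (Z q) (Z q) : ℝ) • (1, 0) -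
      ∑ j, (inner ℝ (Z q) (A j q (Z q)) : ℝ) • (0, e j)) fun i => by
        rw [fd_comb, real_inner_self_eq_norm_sq]
        exact sub_nonneg.2 (a4 i _)
    have b2 : inner ℝ (Z q) (dt Z q) - ∑ j, inner ℝ (Z q) (A j q (dx j Z q)) ≤ K * ‖Z q‖ ^ 2 := by
      rw [← inner_sum, ← inner_sub_right]
      refine (real_inner_le_norm _ _).trans ?_
      nlinarith [norm_nonneg (Z q)]
    have b3 : -(M * ‖Z q‖ ^ 2) ≤ ∑ j, inner ℝ (Z q) (dx j (A j) q (Z q)) := by
      refine le_trans ?_ (Finset.sum_le_sum (f := fun j => -(‖dx j (A j) q‖ * ‖Z q‖ ^ 2)) fun j _ => ?_)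
      · rw [Finset.sum_neg_distrib, ← Finset.sum_mul]
        exact neg_le_neg (mul_le_mul_of_nonneg_right ((le_abs_self _).trans (hM q a1)) (sq_nonneg _))
      · have := neg_le_of_abs_le (abs_real_inner_le_norm (Z q) (dx j (A j) q (Z q)))
        have := (dx j (A j) q).le_opNorm (Z q)
        nlinarith [norm_nonneg (Z q)]
    have b4 : ∀ j, fderiv ℝ (fun p => inner ℝ (Z p) (A j p (Z p))) q (0, e j) =
        2 * inner ℝ (Z q) (A j q (dx j Z q)) + inner ℝ (Z q) (dx j (A j) q (Z q)) := fun j => by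
      rw [fderiv_inner_apply ℝ dZ ((dA j).clm_apply dZ), fderiv_clm_apply (dA j) dZ, ← a2 j,
        real_inner_comm (Z q)]
      simp only [add_apply, ContinuousLinearMap.comp_apply,
        ContinuousLinearMap.flip_apply, inner_add_right, dx]
      ring
    rw [fd_comb] at b1
    simp only [f1, (e5 q a1).self_of_nhds, one_mul, add_apply,
      smul_apply, smul_eq_mul, b4, fderiv_inner_apply ℝ dZ dZ,
      Finset.sum_add_distrib, ← Finset.mul_sum]
    rw [real_inner_comm (Z q), real_inner_self_eq_norm_sq] at *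
    simp only [mul_comm _ (fderiv ℝ (wt φ) q _)]
    have := mul_le_mul_of_nonneg_left b2 (wt_nonneg (φ := φ) q)
    have := mul_le_mul_of_nonneg_left b3 (wt_nonneg (φ := φ) q)
    unfold dt at *
    nlinarith

end Vale.Agent.P354HU
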